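import Vale.Agent.Lib.P134A.FinA

/-!
# P134: De Giorgi's conjecture for axially symmetric solutions in dimensions 3, 4 and 5

Let `n = m + 1` with `2 ≤ m ≤ 4` and let `u` be a smooth entire solution of the Allen-Cahn equation `Δu = u³ - u` on
`ℝ^n` with `|u| ≤ 1` and `∂ₙu > 0`, depending only on `|x'|` and `xₙ`, `x = (x', xₙ)`. Then `u` is one-dimensional,
`u(x) = h(xₙ)`. No assumption is made on the limits of `u` as `xₙ → ±∞`.

Proof: `∂ₙu > 0` gives the stability inequality; testing it with `|∇'u| ζ` and using the linearized equations and the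
axial symmetry, `(m - 1) ∫ ζ² |∇'u|²/(1+|x'|²) ≤ ∫ |∇'u|² |∇ζ|²`. With `ζ = (1+|x'|²)^(-a/2) χ(x/R)`, `a² < m - 1`, and the
weighted Caccioppoli inequality the right side is `O(R^(m-1-2a))`; for `m ≤ 4` one can take `2a > m - 1`.
-/

namespace Vale.Agent.Results.P134.AxialFive

open Vale.Agent.P222 Vale.Agent.P134
open scoped ContDiff

theorem result (m : ℕ) (hm : 2 ≤ m) (hm' : m ≤ 4) (u : (Fin (m + 1) → ℝ) → ℝ)
    (hu : ContDiff ℝ ∞ u) (heq : ∀ x, ∑ i, pder i (pder i u) x = u x ^ 3 - u x)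
    (hb : ∀ x, |u x| ≤ 1) (hmono : ∀ x, 0 < pder (Fin.last m) u x)
    (hax : ∀ x y : Fin (m + 1) → ℝ,
      ∑ i : Fin m, x i.castSucc ^ 2 = ∑ i : Fin m, y i.castSucc ^ 2 →
      x (Fin.last m) = y (Fin.last m) → u x = u y) :
    ∃ h : ℝ → ℝ, ∀ x, u x = h (x (Fin.last m)) := by
  have hs : Sol u := ⟨hu, heq, hb, hmono, hax⟩
  have hcase : m = 2 ∨ m = 3 ∨ m = 4 := by omega
  refine one_dim hu fun x => ?_
  rcases hcase with rfl | rfl | rfl
  · exact gp_zero (a := 3 / 4) (by norm_num) hs (by norm_num) (by norm_num) (by norm_num)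
      (by norm_num) x
  · exact gp_zero (a := 6 / 5) (by norm_num) hs (by norm_num) (by norm_num) (by norm_num)
      (by norm_num) x
  · exact gp_zero (a := 8 / 5) (by norm_num) hs (by norm_num) (by norm_num) (by norm_num)
      (by norm_num) x

end Vale.Agent.Results.P134.AxialFive
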